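import Vale.Agent.P334.MathlibUsed

/-!
Metric k-median: integral and fractional optimum.
-/

namespace Vale.Agent.P334

/-- Connection cost of a nonempty set `S` of open facilities: the sum over all clients `j ∈ J` of
the distance from `j` to its nearest element of `S`. -/
noncomputable def cost {X : Type} [MetricSpace X] (J S : Finset X) : ℝ :=
  ∑ j ∈ J, Metric.infDist j (S : Set X)

/-- The optimum `OPT_k`: the least cost of a nonempty set of at most `k` facilities of `F`. -/
noncomputable def opt {X : Type} [MetricSpace X] (J F : Finset X) (k : ℕ) : ℝ :=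
  sInf {c : ℝ | ∃ S : Finset X, S ⊆ F ∧ S.Nonempty ∧ S.card ≤ k ∧ c = cost J S}

/-- Feasible solutions of the standard linear programming relaxation with facility budget `m`:
`y i` is the extent to which facility `i` is open and `x i j` the fraction of client `j` served
by facility `i`. -/
structure IsFrac {X : Type} (J F : Finset X) (m : ℝ) (x : X → X → ℝ) (y : X → ℝ) : Prop where
  x_nonneg : ∀ i ∈ F, ∀ j ∈ J, 0 ≤ x i j
  x_le : ∀ i ∈ F, ∀ j ∈ J, x i j ≤ y i
  y_nonneg : ∀ i ∈ F, 0 ≤ y i
  y_le_one : ∀ i ∈ F, y i ≤ 1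
  assign : ∀ j ∈ J, ∑ i ∈ F, x i j = 1
  budget : ∑ i ∈ F, y i ≤ m

/-- Cost of a fractional assignment. -/
noncomputable def fracCost {X : Type} [MetricSpace X] (J F : Finset X) (x : X → X → ℝ) : ℝ :=
  ∑ j ∈ J, ∑ i ∈ F, x i j * dist i j

/-- Optimum value of the standard linear programming relaxation with facility budget `m`. -/
noncomputable def lpVal {X : Type} [MetricSpace X] (J F : Finset X) (m : ℝ) : ℝ :=
  sInf {c : ℝ | ∃ (x : X → X → ℝ) (y : X → ℝ), IsFrac J F m x y ∧ c = fracCost J F x}

end Vale.Agent.P334
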