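import Mathlib.Algebra.Order.Floor.Semifield
import Mathlib.Algebra.Order.Quantale
import Mathlib.Algebra.Order.Ring.Star
import Mathlib.Algebra.Order.Star.Real
import Mathlib.Analysis.Complex.ExponentialBounds
import Mathlib.Computability.Reduce
import Mathlib.Computability.TuringMachine.Computable
import Mathlib.Control.Monad.Cont
import Mathlib.Data.Finite.Vector
import Mathlib.Data.Int.Star
import Mathlib.Data.List.TakeWhile
import Mathlib.Data.Rat.Star
import Mathlib.LinearAlgebra.Complex.FiniteDimensional
import Mathlib.MeasureTheory.Integral.IntervalIntegral.Basic
import Mathlib.Tactic
import Mathlib.Topology.Algebra.ProperAction.Basic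

/-! The part of Mathlib that the development of this folder uses. -/
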